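import Vale.Agent.P352X.R.CONT.B
import Vale.Agent.P352Z.P352X.R.CONT.A

open Vale.Agent.P352G

/-!
# P352X, row CONT, part B: the mirror, and the limits of the faces (helper34)
-/

set_option linter.all false

open MeasureTheory Filter Topology
open scoped SchwartzMap ComplexConjugate ENNReal ContDiff

namespace Vale.Agent.P352X

open Vale.Agent.P352 Vale.Agent.P352.GF Vale.Agent.P352.BW Vale.Agent.P352.H246
open Vale.Agent.P352.H496 Vale.Agent.P352.H755 Vale.Agent.P352.H15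
open UniformSpace (Completion)
open Far

noncomputable section

namespace Cont

/-! ### mirror images of test functions -/

/-! ### the modular conjugation -/

variable {D : Type*} [NormedAddCommGroup D] [InnerProductSpace ℂ D] [GrD D] {c : CtxZ D}

lemma J_innerZ (x y : Completion D) : inner ℂ (c.J x) (c.J y) = inner ℂ y x :=
  c.E.inner_J_J x y

lemma J_ThZ (hj : JCZ c) {f : Fn} (hf : IsTest f) :
    c.J (c.Th f) = c.Th (bar fun z => f (jr z)) := by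
  simp only [Th_eqZ, map_sum, map_smulₛₗ, hj.one _ _ _ hf, sj_sq, Complex.conj_ofReal,
    Complex.ofReal_one, one_smul]

lemma J_prZ (hj : JCZ c) {f : P3 → ℝ} {φ : ℝ → ℝ} (hf : Tst f) (hφ : Tst φ) :
    c.J (c.Th (pr f φ)) = c.Th (pr (mj f) (ng φ)) := by
  rw [J_ThZ hj (isTest_dc (dc_pr hf hφ)), pr_jr]

lemma J_w0Z {w : I2 → I2 → S2 →L[ℂ] Completion D} (hw : ∀ K M (F G : S2),
    (∀ x y, G (x, y) = conj (F (jr x, jr y))) →
      w K M G = ((sj K.1 * sj K.2 * (sj M.1 * sj M.2) : ℝ) : ℂ) • c.J (c.wp K M F))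
    {F G : S2} (e : ∀ x y, G (x, y) = conj (F (jr x, jr y))) : w0 w G = c.J (w0 c.wp F) := by
  simp only [w0, map_sum, map_smulₛₗ, hw _ _ F G e, sj_sq, Complex.conj_ofReal, smul_smul,
    ← Complex.ofReal_mul]
  refine Finset.sum_congr rfl fun k _ => Finset.sum_congr rfl fun l _ =>
    Finset.sum_congr rfl fun n _ => ?_
  have h : ∀ k, va k * sj k = -va k := fun k => by fin_cases k <;> simp [va, sj]
  congr 2
  linear_combination (eta k * eta l * eta n * (va l * sj l)) * h k -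
    (eta k * eta l * eta n * va k) * h l

lemma J_ugZ (hj : JCZ c) {L L' : Ix → V} {a a' : V} (hL : IsLor L)
    (hA : L = GF.one ∨ AN va L ∨ AN vb L) (ha : jr a = a')
    (e : ∀ z, sim 1 L' 0 (jr z) = jr (sim 1 L 0 z)) (z : Completion D) :
    c.J (Ug c.Q 1 L a z) = Ug c.Q 1 L' a' (c.J z) := by
  have : jL L = L' := funext fun m => by
    rw [← sim_bas (jL L), ← sim_bas L', ← jr_jr (GF.one m), e, ← (hj.lor L hL).2, jr_zero]
  rw [hj.ug _ _ _ _ one_pos hL (.inr hA), this, ha]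

lemma J_MiZ (hg : GRPZ c) (hj : JCZ c) (i : Fin 2) (t : ℝ) (z : Completion D) :
    c.J (Mi c.Q i t z) = Mi c.Q i (-t) (c.J z) := by
  refine J_ugZ hj (hg.lga _).1 (.inr (.inl (AN.nrt _ _))) jr_zero (fun z => ?_) z
  rw [(hg.lga _).2, (hg.lga _).2]
  refine null_ext ?_ (by simp) (by simp)
  simp only [al_gap, al_jr, be_jr, tx_jr, neg_smul, d2_neg, d2_neg_l]
  ring

lemma J_PaZ (hj : JCZ c) (t : ℝ) (z : Completion D) :
    c.J (Pa c.Q t z) = Pa c.Q (-t) (c.J z) := by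
  have e : ∀ z, sim 1 GF.one 0 z = z := fun z => funext fun n => by simp [sim, GF.one, bas]
  exact J_ugZ hj H496.isLor_one (.inl rfl) (null_ext (by simp) (by simp) (by simp)) (fun z => by rw [e, e]) z

lemma mirZ {W : ℝ → Completion D →L[ℂ] Completion D} (h0 : W 0 = 1)
    (hu : ∀ t, W t ∈ unitary (Completion D →L[ℂ] Completion D))
    (hJ : ∀ t z, c.J (W t z) = W (-t) (c.J z)) {x y : Completion D} (hx : Dm W x) (hy : Dm W y) :
    inner ℂ (c.J x) (gen W (c.J y)) = inner ℂ y (gen W x) := by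
  rw [(hy.gn.anti_neg c.J fun t => hJ t y).gen_eq, J_innerZ, gsym h0 hu hy hx]

lemma dm_SKZ (hg : GRPZ c) (hk' : KDZ c) {f : P3 → ℝ} {φ : ℝ → ℝ} (hf : Tst f) (hφ : Tst φ)
    (h : tsupport φ ⊆ Set.Iio 0 ∨ tsupport φ ⊆ Set.Ioi 0) : Dm c.SK (c.Th (pr f φ)) := by
  obtain ⟨b1, b2, h1, h2⟩ : ∃ b1 b2 : ℝ, (b2 < 0 ∨ 0 < b1) ∧ tsupport φ ⊆ Set.Icc b1 b2 := by
    rcases h with h | h
    · obtain ⟨b1, b2, h1, h2⟩ := slab hφ h
      exact ⟨b1, b2, .inl h1, h2⟩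
    · obtain ⟨b1, b2, h1, h2⟩ := slab' hφ h
      exact ⟨b1, b2, .inr h1, h2⟩
  obtain ⟨m, C, H⟩ := hk'.slab b1 b2 h1
  have hd := dc_pr hf hφ
  have key : ∀ h k, Dm c.SK (c.Tv (hk h k (pr f φ))) := fun h k => by
    have := (H h k (sch (pr f φ)) (by
      rw [sch_coe hd]
      exact fun z hz => h2 (tsupport_pr _ _ hz).2)).1
    rwa [ev, sch_coe hd] at this
  have e : c.Th (pr f φ) = (2 : ℂ) • c.Tv (hk va vb (pr f φ)) -
      ∑ i, c.Tv (hk (ex i) (ex i) (pr f φ)) := by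
    rw [CtxZ.Th, hg.trace _ _ (isTest_dc hd)]
    change Completion.toComplL (𝕜 := ℂ) _ = _
    simp only [map_sub, map_sum, map_smul]
    rfl
  rw [e]
  exact ((key _ _).smul 2).sub (Dm.sum _ fun i _ => key _ _)

/-- the mirror image of the plane form -/
theorem PF_mirZ (h : T2Z c) {f g : P3 → ℝ} {α β : ℝ → ℝ} (hf : Tst f) (hg : Tst g) (hα : Tst α)
    (hβ : Tst β) (sα : tsupport α ⊆ Set.Iio 0) (sβ : tsupport β ⊆ Set.Ioi 0) :
    c.PF (pr g β) (pr f α) = c.PF (pr (mj f) (ng α)) (pr (mj g) (ng β)) := by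
  have dM : ∀ i {f : P3 → ℝ} {φ : ℝ → ℝ}, Tst f → Tst φ → Dm (Mi c.Q i) (c.Th (pr f φ)) :=
    fun i _ _ hf hφ => (h.gen.mith i _ (isTest_dc (dc_pr hf hφ))).dm
  have dP : ∀ {f : P3 → ℝ} {φ : ℝ → ℝ}, Tst f → Tst φ → Dm (Pa c.Q) (c.Th (pr f φ)) :=
    fun hf hφ => (h.gen.uth va _ (isTest_dc (dc_pr hf hφ))).dm
  have mM : ∀ i {x y}, Dm (Mi c.Q i) x → Dm (Mi c.Q i) y →
      inner ℂ (c.J x) (gen (Mi c.Q i) (c.J y)) = inner ℂ y (gen (Mi c.Q i) x) := fun i _ _ =>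
    mirZ ((congrArg (Ga c.Q) (zero_smul _ _)).trans h.grp.ga0) (fun t => h.grp.uni _ _ _) (J_MiZ h.grp h.jc i)
  have mP : ∀ {x y}, Dm (Pa c.Q) x → Dm (Pa c.Q) y →
      inner ℂ (c.J x) (gen (Pa c.Q) (c.J y)) = inner ℂ y (gen (Pa c.Q) x) :=
    mirZ ((congrArg (Ut c.Q) (zero_smul _ _)).trans h.grp.ut0) (fun t => h.grp.uni _ _ _) (J_PaZ h.jc)
  have e : ∀ i (f : P3 → ℝ), xi i (mj f) = mj (xi i f) := fun _ _ => rfl
  rw [PF_prZ, PF_prZ]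
  simp only [e, ← J_prZ h.jc hf hα, ← J_prZ h.jc hg hβ, ← J_prZ h.jc (tst_xi hf _) hα,
    ← J_prZ h.jc (tst_xi hg _) hβ]
  rw [mirZ (c.hS.zero va null_va) (fun t => h.grp.S_uni va t null_va) h.jc.S
    (dm_SKZ h.grp h.kd hf hα (.inl sα)) (dm_SKZ h.grp h.kd hg hβ (.inr sβ))]
  congr 1
  · congr 1
    refine Finset.sum_congr rfl fun i _ => ?_
    rw [mM i (dM i (tst_xi hf i) hα) (dM i hg hβ), mM i (dM i hf hα) (dM i (tst_xi hg i) hβ),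
      add_comm]
  · exact Finset.sum_congr rfl fun i _ => (mP (dP (tst_xi hf i) hα) (dP (tst_xi hg i) hβ)).symm

/-! ### the faces -/

section face

variable {κ f g : P3 → ℝ} {ρ θ1 θ φ : ℝ → ℝ}

theorem lo1Z [Fact c.tp] (hF : FARZ c) (hM : CONMZ c) (hK : CONKZ c) (hκ : Cut κ) (hf : Tst f) (hg : Tst g)
    (hρ : Tst ρ) (hρ' : tsupport ρ ⊆ Set.Icc (-1 / 2) (1 / 2)) (h1 : Tst θ1) (hθ : Bump θ)
    (hφ : Tst φ) (hφ' : tsupport φ ⊆ Set.Iio 0) :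
    Apx (fun δ L => c.t0 (triF κ f g ρ θ1 φ δ L))
      fun δ => (∫ t, ρ t : ℝ) * c.PF (pr f (abv θ1 θ δ)) (pr g φ) := by
  obtain ⟨b1, b2, hb, hs⟩ := slab hφ hφ'
  have hu : 0 < -b2 / 4 := by linarith
  obtain ⟨θ2, θ3, h2, h3, e, s2, s3, e'⟩ := cutθ h1 hu
  have a1 := coreZ hM hK c.hTP.tm hκ hf hg hρ hρ' h2 hθ hφ hφ'
  have a2 : Apx (fun δ L => c.t0 (triF κ f g ρ θ3 φ δ L)) fun _ => 0 := .of_lim (by
    filter_upwards [Ioc_mem_nhdsGT hu] with δ hδ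
    refine sideZ hF hκ.1 hf hg hρ h3 hφ hδ.1 (supp_dlt hρ' hδ.1 hδ.2) (.inl ?_)
    rintro t (ht | ht)
    · exact s3 ht
    · have := (hs ht).2
      show t < _
      linarith)
  refine (a1.add a2).congr ?_ (.of_forall fun δ => by rw [e', add_zero])
  filter_upwards [Ioc_mem_nhdsGT hu] with δ hδ
  filter_upwards [eventually_gt_atTop (0 : ℝ)] with L hL
  have H : ∀ s ∈ tsupport (dlt δ ρ) ∪ tsupport θ2, ∀ t ∈ tsupport φ, t < s := by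
    rintro s (h | h) t ht
    · linarith [(hs ht).2, (supp_dlt hρ' hδ.1 hδ.2 h).1]
    · linarith [(hs ht).2, show -3 * (-b2 / 4) ≤ s from s2 h]
  rw [triF_add hκ.1 hf hg hρ h1 h2 h3 e hφ hδ.1 hL, t0_addZ, triF_dec hκ.1 hf hg hρ h2 hφ hδ.1 hL,
    t0_subZ, t0_addZ, t0_addZ, t0_addZ, tq_loZ c sm_xx hκ.1 hf hg hρ h2 hφ hδ.1 hL H,
    tq_loZ c (sm_xi 0) hκ.1 (tst_xi hf 0) hg hρ h2 hφ hδ.1 hL H,
    tq_loZ c (sm_xi 1) hκ.1 (tst_xi hf 1) hg hρ h2 hφ hδ.1 hL H,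
    tq_loZ c (sm_xi 0) hκ.1 hf (tst_xi hg 0) hρ h2 hφ hδ.1 hL H,
    tq_loZ c (sm_xi 1) hκ.1 hf (tst_xi hg 1) hρ h2 hφ hδ.1 hL H]
  rfl

theorem PF_hiZ (h : T2Z c) (hf : Tst f) (hg : Tst g) (h1 : Tst θ1) (hθ : Bump θ) (hφ : Tst φ)
    (hφ' : tsupport φ ⊆ Set.Ioi 0) {δ : ℝ} (hδ : 0 < δ) : c.PF (pr g φ) (pr f (blw θ1 θ δ)) =
      c.PF (pr (mj f) (abv (ng θ1) θ δ)) (pr (mj g) (ng φ)) := by
  rw [blw_eq θ1 hθ, PF_mirZ h hf hg (tst_ng (tst_abv (tst_ng h1) hθ hδ)) hφ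
    (supp_ng_lo fun t ht => hδ.trans_le (supp_abv _ hθ hδ ht)) hφ', ng_ng]

theorem hi1Z [Fact c.tp] (h : T2Z c) (hF : FARZ c) (hM : CONMZ c) (hK : CONKZ c) (hκ : Cut κ) (hf : Tst f)
    (hg : Tst g) (hρ : Tst ρ) (hρ' : tsupport ρ ⊆ Set.Icc (-1 / 2) (1 / 2)) (h1 : Tst θ1)
    (hθ : Bump θ) (hφ : Tst φ) (hφ' : tsupport φ ⊆ Set.Ioi 0) :
    Apx (fun δ L => c.t0 (triF κ f g ρ θ1 φ δ L))
      fun δ => (∫ t, ρ t : ℝ) * c.PF (pr g φ) (pr f (blw θ1 θ δ)) := by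
  obtain ⟨w, hw, hw'⟩ := h.mir Fact.out
  obtain ⟨b1, b2, hb, hs⟩ := slab' hφ hφ'
  have hu : 0 < b1 / 4 := by linarith
  obtain ⟨θ2, θ3, h2, h3, e, s2, s3, e'⟩ := cutθ (tst_ng h1) hu
  have a1 := coreZ hM hK hw (cut_mj hκ) (tst_mj hf) (tst_mj hg) (tst_ng hρ) (fun t ht => by
    obtain ⟨a, b⟩ := hρ' (supp_ng ht)
    constructor <;> linarith) h2 hθ (tst_ng hφ) (supp_ng_lo hφ')
  have a2 : Apx (fun δ L => c.t0 (triF κ f g ρ (ng θ3) φ δ L)) fun _ => 0 := .of_lim (by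
    filter_upwards [Ioc_mem_nhdsGT hu] with δ hδ
    refine sideZ hF hκ.1 hf hg hρ (tst_ng h3) hφ hδ.1 (supp_dlt hρ' hδ.1 hδ.2) (.inr ?_)
    rintro t (ht | ht)
    · exact show b1 / 4 < t from neg_lt_neg_iff.1 (s3 (supp_ng ht))
    · have := (hs ht).1
      show _ < t
      linarith)
  refine (a1.add a2).congr ?_ ?_
  · filter_upwards [Ioc_mem_nhdsGT hu] with δ hδ
    filter_upwards [eventually_gt_atTop (0 : ℝ)] with L hL
    have g2 := tst_ng h2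
    have H : ∀ s ∈ tsupport (dlt δ ρ) ∪ tsupport (ng θ2), ∀ t ∈ tsupport φ, s < t := by
      rintro s (h | h) t ht
      · linarith [(hs ht).1, (supp_dlt hρ' hδ.1 hδ.2 h).2]
      · linarith [(hs ht).1, show -3 * (b1 / 4) ≤ -s from s2 (supp_ng h)]
    have key : ∀ {W : R2 → ℝ} {f g : P3 → ℝ}, ContDiff ℝ ∞ W → Tst f → Tst g →
        c.t0 (tq W κ f g ρ (ng θ2) φ δ L) =
          inner ℂ (w0 w (pairF W (mj κ) (mj f) (ng ρ) θ2 δ L)) (c.Th (pr (mj g) (ng φ))) := by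
      intro W f g hW hf hg
      rw [tq_hiZ c hW hκ.1 hf hg hρ g2 hφ hδ.1 hL H, ← J_innerZ, J_prZ h.jc hg hφ, ← J_w0Z hw'
        (G := pairF W (mj κ) (mj f) (ng ρ) θ2 δ L) fun x y => ?_]
      refine (sch_apply (dc_pf0 hW (tst_mj hκ.1) (tst_mj hf) (tst_ng hρ) h2 hδ.1 hL) _).trans ?_
      rw [show pairF W κ f ρ (ng θ2) δ L (jr x, jr y) = _ from
        sch_apply (dc_pf0 hW hκ.1 hf hρ g2 hδ.1 hL) _, ← pf0_jr, ng_ng]
    rw [triF_add hκ.1 hf hg hρ h1 g2 (tst_ng h3) (fun t => by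
        have := e (-t)
        rwa [ng, neg_neg] at this) hφ hδ.1 hL, t0_addZ,
      triF_dec hκ.1 hf hg hρ g2 hφ hδ.1 hL, t0_subZ, t0_addZ, t0_addZ, t0_addZ, key sm_xx hf hg,
      key (sm_xi 0) (tst_xi hf 0) hg, key (sm_xi 1) (tst_xi hf 1) hg,
      key (sm_xi 0) hf (tst_xi hg 0), key (sm_xi 1) hf (tst_xi hg 1)]
    rfl
  · filter_upwards [self_mem_nhdsWithin] with δ hδ
    rw [PF_hiZ h hf hg h1 hθ hφ hφ' hδ, e', add_zero]
    congr 2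
    exact (integral_neg_eq_self ρ volume).symm

end face

end Cont

end

end Vale.Agent.P352X
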